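import Vale.Agent.P073.H117.Lim
import Vale.Agent.P073.H582.ColChain
import Vale.Agent.P073.H195.ColFib
import Vale.Agent.P073.H911.Tau

/-!
# The collapse theorem [COL], assembled, variable scale

`col`: for an open bounded `V` which is thin at all scales `≥ τ`, there is a convex `Φ` with
`(1+h)|y|²/2 - Φ` convex, `|y|²/2 ≤ Φ ≤ |y|²/2 + (h/2) τ²`, whose gradient `T` is monotone,
`(1+h)`-Lipschitz, `|T y - y| ≤ h τ y`, and such that every fibre of `T` is the convex hull of its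
points outside `V`.
-/

open Set Metric MeasureTheory Filter Topology

namespace Vale.Agent.P073.COL605

open Vale.Agent.P073.H117 Vale.Agent.P073.H911

variable {E : Type*} [NormedAddCommGroup E] [InnerProductSpace ℝ E]

/-- `V` is thin at all scales `≥ τ`. -/
def Thin [MeasurableSpace E] (μ : Measure E) (h : ℝ) (V : Set E) (τ : E → ℝ) : Prop :=
  ∀ y r, 0 < r → τ y ≤ r → μ (V ∩ ball y r)
    < ENNReal.ofReal ((h / (4 * (1 + h))) ^ Module.finrank ℝ E) * μ (ball y r)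

/-- The output of the collapse theorem (`Inp`: `Φ` has gradient `T` with the two quadratic bounds,
`|y|²/2 ≤ Φ`, and `Φ` is the supremum of its affine minorants over `Vᶜ`). -/
structure Collapse (Λ V : Set E) (h : ℝ) (τ : E → ℝ) (Φ : E → ℝ) (T : E → E) : Prop where
  inp : H195.ColFib.Inp V h Φ T
  le : ∀ y, Φ y ≤ ‖y‖ ^ 2 / 2 + h / 2 * τ y ^ 2
  near : ∀ y, ‖T y - y‖ ≤ h * τ y
  fix : ∀ y, y ∉ Λ → T y = y
  maps : MapsTo T Λ Λ
  meet : ∀ x, ∃ z, z ∉ V ∧ T z = x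
  coco : ∀ y z, ‖T y - T z‖ ^ 2 ≤ (1 + h) * inner ℝ (T y - T z) (y - z)
  lip : ∀ y z, ‖T y - T z‖ ≤ (1 + h) * ‖y - z‖
  away : ∀ y, (∀ y1 w, w ∈ V → 0 < τ y1 → ‖y1 - y‖ ^ 2 < 2 * τ y1 ^ 2 → τ y1 ≤ dist y1 w) →
    T y = y

/-- the chain of operators is a chain in the sense of `H582` -/
theorem chain_GG [FiniteDimensional ℝ E] [Nontrivial E] {h : ℝ} {V : Set E} (hh : 0 < h)
    (hV : Bornology.IsBounded V) : H582.Col.Chain V h (GG h V) := by
  obtain ⟨h1, h2, h3, h4, h5, h6⟩ := chain (V := V) hh hV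
  exact ⟨h1, h2, h3, h4, h5, h6⟩

theorem GG_zero_sub {h : ℝ} {V : Set E} (k : ℕ) (y : E) :
    GG h V 0 y - GG h V k y = Phi h V k y - qq y := by
  have h1 : Phi h V 0 y = qq y := rfl
  simp only [GG, h1]
  ring

theorem exists_pot [FiniteDimensional ℝ E] [Nontrivial E] [MeasurableSpace E] [BorelSpace E]
    (μ : Measure E) [μ.IsAddHaarMeasure] {h : ℝ} {V : Set E} {τ : E → ℝ} (hh : 0 < h)
    (hVb : Bornology.IsBounded V) (hτ0 : ∀ y, 0 ≤ τ y)
    (hτc : ConvexOn ℝ univ (fun y => ‖y‖ ^ 2 / 2 - τ y ^ 2)) (hτb : ∃ C, ∀ y, τ y ≤ C)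
    (thin : Thin μ h V τ) :
    ∃ Φ : E → ℝ, ConvexOn ℝ univ Φ ∧ ConvexOn ℝ univ (fun y => (1 + h) / 2 * ‖y‖ ^ 2 - Φ y) ∧
      (∀ y, ‖y‖ ^ 2 / 2 ≤ Φ y) ∧ (∀ y, Φ y ≤ ‖y‖ ^ 2 / 2 + h / 2 * τ y ^ 2) ∧
      (∀ (p : E) (c : ℝ), (∀ z, z ∉ V → inner ℝ p z + c ≤ Φ z) → ∀ y, inner ℝ p y + c ≤ Φ y) ∧
      (∀ y, (∀ y1 w, w ∈ V → 0 < τ y1 → ‖y1 - y‖ ^ 2 < 2 * τ y1 ^ 2 → τ y1 ≤ dist y1 w) →
        Φ y = ‖y‖ ^ 2 / 2) := by
  have H := chain_GG hh hVb
  obtain ⟨C, hC⟩ := hτb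
  have hsupp : ∀ k y, (∀ y1 w, w ∈ V → 0 < τ y1 → ‖y1 - y‖ ^ 2 < 2 * τ y1 ^ 2 →
      τ y1 ≤ dist y1 w) → Phi h V k y = qq y := by
    intro k y hy
    by_contra hne
    have h1 : GG h V k y ≠ GG h V 0 y := by
      intro h2
      have := GG_zero_sub (h := h) (V := V) k y
      rw [h2, sub_self] at this
      exact hne (by linarith)
    obtain ⟨y1, w, h2, h3, h4, h5⟩ := H.support μ hh hτ0 thin h1
    exact absurd (hy y1 w h2 h3 h4) (not_le.2 h5)
  have hb : ∀ k y, Phi h V k y ≤ qq y + h / 2 * τ y ^ 2 := by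
    intro k y
    have h1 := H.bound μ hh hτ0 hτc thin k y
    rw [GG_zero_sub] at h1
    linarith
  have hR : ∃ R, ∀ k y, R ≤ ‖y‖ → Phi h V k y = qq y := by
    obtain ⟨RV, hRV⟩ := hVb.exists_norm_le
    refine ⟨RV + 3 * |C| + 1, fun k y hy => hsupp k y ?_⟩
    intro y1 w hw hy1 hd
    by_contra hlt
    push Not at hlt
    have h1 := hRV w hw
    have h2 : τ y1 ≤ |C| := (hC y1).trans (le_abs_self C)
    have h3 : ‖y1 - y‖ < 2 * |C| := by
      have h4 : ‖y1 - y‖ ^ 2 < (2 * |C|) ^ 2 := by nlinarith [abs_nonneg C]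
      exact lt_of_pow_lt_pow_left₀ 2 (by positivity) h4
    have h5 : ‖y‖ ≤ ‖y1 - y‖ + dist y1 w + ‖w‖ := by
      rw [dist_eq_norm]
      calc ‖y‖ = ‖-(y1 - y) + (y1 - w) + w‖ := by congr 1; abel
        _ ≤ ‖-(y1 - y)‖ + ‖y1 - w‖ + ‖w‖ := norm_add₃_le
        _ = _ := by rw [norm_neg]
    linarith
  obtain ⟨F, hF1, hF2, hF3, hF4, hF5, hF6⟩ := lim hh hVb hb hR
  refine ⟨F, hF1, ?_, hF3, hF4, ?_, fun y hy => hF5 y fun k => hsupp k y hy⟩
  · have h1 : (fun y : E => (1 + h) / 2 * ‖y‖ ^ 2 - F y) = fun y => (1 + h) * qq y - F y := by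
      funext y
      unfold qq
      ring
    rw [h1]
    exact hF2
  · intro p c hz y
    rw [← hF6 y]
    exact le_env (K := Vᶜ) (by rwa [compl_compl]) (fun z hz' => hz z hz') y

/-- **The collapse theorem, variable scale.** -/
theorem col [FiniteDimensional ℝ E] [Nontrivial E] [MeasurableSpace E] [BorelSpace E]
    (μ : Measure E) [μ.IsAddHaarMeasure] {h : ℝ} {Λ V : Set E} {τ : E → ℝ} (hh : 0 < h)
    (hVo : IsOpen V) (hVb : Bornology.IsBounded V) (hτ0 : ∀ y, 0 ≤ τ y)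
    (hτc : ConvexOn ℝ univ (fun y => ‖y‖ ^ 2 / 2 - τ y ^ 2)) (hτb : ∃ C, ∀ y, τ y ≤ C)
    (hτΛ : ∀ y, y ∉ Λ → τ y = 0) (hτm : ∀ y ∈ Λ, closedBall y (h * τ y) ⊆ Λ)
    (thin : Thin μ h V τ) : ∃ (Φ : E → ℝ) (T : E → E), Collapse Λ V h τ Φ T := by
  obtain ⟨Φ, h1, h2, h3, h4, h5, h6⟩ := exists_pot μ hh hVb hτ0 hτc hτb thin
  have hL : 0 < 1 + h := by linarith
  obtain ⟨T, g1, g2, g3, g4, g5, g6⟩ := exists_grad hL h1 h2
  have hI : H195.ColFib.Inp V h Φ T := ⟨g2, g3, h3, h5, hVo, hh⟩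
  -- the gradient of `v = Φ - |y|²/2`
  have hv : ∀ y, ‖T y - y‖ ^ 2 ≤ 2 * h * (Φ y - ‖y‖ ^ 2 / 2) := by
    intro y
    refine norm_grad_sq_le (v := fun y => Φ y - ‖y‖ ^ 2 / 2) hh (fun z => by
      have := h3 z; linarith) (fun z => ?_)
    have h7 := g3 y z
    have h8 : ‖z‖ ^ 2 = ‖y‖ ^ 2 + 2 * inner ℝ y (z - y) + ‖z - y‖ ^ 2 := by
      have : z = y + (z - y) := by abel
      conv_lhs => rw [this]
      rw [norm_add_sq_real]
    rw [inner_sub_left, h8]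
    linarith
  have hnear : ∀ y, ‖T y - y‖ ≤ h * τ y := by
    intro y
    have h7 := hv y
    have h8 := h4 y
    have h9 : ‖T y - y‖ ^ 2 ≤ (h * τ y) ^ 2 := by nlinarith
    exact le_of_sq_le_sq h9 (by have := hτ0 y; positivity)
  have hfix : ∀ y, y ∉ Λ → T y = y := by
    intro y hy
    have h7 := hnear y
    rw [hτΛ y hy, mul_zero] at h7
    exact sub_eq_zero.1 (norm_le_zero_iff.1 h7)
  refine ⟨Φ, T, hI, h4, hnear, hfix, fun y hy => hτm y hy ?_, fun x => ?_, fun y z => ?_,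
    fun y z => g6 z y, fun y hy => ?_⟩
  · rw [mem_closedBall, dist_eq_norm]
    exact hnear y
  · -- surjectivity
    have hc : Continuous Φ := hI.continuous
    have hG : Grows Φ := ⟨1 / 2, 0, by norm_num, fun y => by have := h3 y; linarith⟩
    obtain ⟨y, hy⟩ := exists_isMin hc hG x
    have h7 : T y = x := hy.grad (g1 y)
    obtain ⟨z, hz, hz'⟩ := hI.exists_out y
    exact ⟨z, hz, hz'.trans h7⟩
  · have h7 := g5 z y
    rw [one_div, inv_mul_le_iff₀ hL] at h7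
    exact h7
  · have h7 := hv y
    rw [h6 y hy, sub_self, mul_zero] at h7
    have h8 : ‖T y - y‖ = 0 := by
      have := sq_nonneg ‖T y - y‖
      exact pow_eq_zero_iff two_ne_zero |>.1 (le_antisymm h7 this)
    exact sub_eq_zero.1 (norm_eq_zero.1 h8)

/-- the constant of the integral form of thinness -/
noncomputable def cThin [MeasurableSpace E] (μ : Measure E) (h : ℝ) : ENNReal :=
  ENNReal.ofReal ((h / (8 * (1 + h))) ^ Module.finrank ℝ E / 2) * μ (ball (0 : E) 1)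

theorem cThin_pos [FiniteDimensional ℝ E] [MeasurableSpace E] [BorelSpace E] (μ : Measure E)
    [μ.IsAddHaarMeasure] {h : ℝ} (hh : 0 < h) : 0 < cThin μ h := by
  unfold cThin
  have h1 : 0 < μ (ball (0 : E) 1) := isOpen_ball.measure_pos μ ⟨0, by simp⟩
  have h2 : 0 < ENNReal.ofReal ((h / (8 * (1 + h))) ^ Module.finrank ℝ E / 2) :=
    ENNReal.ofReal_pos.2 (by positivity)
  exact ENNReal.mul_pos h2.ne' h1.ne'

/-- thinness from an integral bound -/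
theorem thin_of_int [FiniteDimensional ℝ E] [MeasurableSpace E] [BorelSpace E] (μ : Measure E)
    [μ.IsAddHaarMeasure] {h : ℝ} (hh : 0 < h) {τ : E → ℝ} (hτL : ∀ x y, τ y ≤ τ x + dist y x)
    {V : Set E} (hV : MeasurableSet V) (hVτ : ∀ y ∈ V, 0 < τ y) (hτ : Measurable τ)
    (hc : ∫⁻ y in V, ENNReal.ofReal (1 / τ y) ^ Module.finrank ℝ E ∂μ ≤ cThin μ h) :
    Thin μ h V τ := by
  intro y r hr hry
  have h1 := thin_of_lintegral μ hτL hV hVτ hτ hc hr hry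
  refine h1.trans_lt ?_
  set n := Module.finrank ℝ E with hn
  have hB : 0 < μ (ball (0 : E) 1) := isOpen_ball.measure_pos μ ⟨0, by simp⟩
  have hBt : μ (ball (0 : E) 1) ≠ ⊤ := measure_ball_lt_top.ne
  have h2 : μ (ball y r) = ENNReal.ofReal (r ^ n) * μ (ball (0 : E) 1) := by
    have h3 := Measure.addHaar_ball_mul_of_pos μ y hr 1
    rw [mul_one] at h3
    rw [h3]
  rw [h2, cThin, ← mul_assoc, ← mul_assoc, ← ENNReal.ofReal_pow (by positivity),
    ← ENNReal.ofReal_mul (by positivity), ← ENNReal.ofReal_mul (by positivity)]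
  refine ENNReal.mul_lt_mul_left hB.ne' hBt ?_
  rw [ENNReal.ofReal_lt_ofReal_iff (by positivity)]
  have h4 : (2 * r) ^ n * ((h / (8 * (1 + h))) ^ n / 2) = (h / (4 * (1 + h))) ^ n * r ^ n / 2 := by
    have h5 : h / (4 * (1 + h)) = 2 * (h / (8 * (1 + h))) := by
      field_simp; ring
    rw [h5, mul_pow, mul_pow]
    ring
  rw [h4]
  exact half_lt_self (by positivity)

/-- **The collapse theorem in final form.** For every bounded open `Λ` and every positive scale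
function `ρ` on `Λ` there is a scale `τ ≤ ρ` such that every open `V ⊆ Λ` with
`∫_V τ⁻ⁿ ≤ cThin` can be collapsed. -/
theorem exists_scale [FiniteDimensional ℝ E] [Nontrivial E] [MeasurableSpace E] [BorelSpace E]
    (μ : Measure E) [μ.IsAddHaarMeasure] {Λ : Set E} (hΛ : IsOpen Λ)
    (hΛb : Bornology.IsBounded Λ) {h : ℝ} (hh : 0 < h) (hh1 : h ≤ 1) {ρ : E → ℝ}
    (hρ : ∀ y ∈ Λ, ∃ c > 0, ∃ d > 0, ∀ z ∈ Λ, dist z y < d → c ≤ ρ z) :
    ∃ τ : E → ℝ, (∀ y, 0 ≤ τ y) ∧ (∀ y, 0 < τ y ↔ y ∈ Λ) ∧ (∀ y ∈ Λ, τ y ≤ ρ y) ∧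
      (∀ x y, τ y ≤ τ x + dist y x) ∧ (∀ y ∈ Λ, closedBall y (h * τ y) ⊆ Λ) ∧
      ∀ V : Set E, IsOpen V → V ⊆ Λ →
        ∫⁻ y in V, ENNReal.ofReal (1 / τ y) ^ Module.finrank ℝ E ∂μ ≤ cThin μ h →
        ∃ (Φ : E → ℝ) (T : E → E), Collapse Λ V h τ Φ T := by
  classical
  -- `ρ' = min ρ (dist to the complement / 2) 1`
  set ρ' : E → ℝ := fun y => min (min (ρ y) (infDist y Λᶜ / 2)) 1 with hρ'
  have hne : (Λᶜ : Set E).Nonempty := by
    rw [nonempty_compl]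
    rintro rfl
    exact NormedSpace.unbounded_univ ℝ E hΛb
  have hpos : ∀ y ∈ Λ, 0 < infDist y Λᶜ := fun y hy =>
    (hΛ.isClosed_compl.notMem_iff_infDist_pos hne).1 (by simpa using hy)
  obtain ⟨τ, t0, t1, t2, t3, t4, -⟩ := exists_tau (ρ := ρ') hΛ (e := 1) one_pos le_rfl (by
    intro y hy
    obtain ⟨c, hc, d, hd, hcd⟩ := hρ y hy
    have hp := hpos y hy
    refine ⟨min (min c (infDist y Λᶜ / 4)) 1, by positivity, min d (infDist y Λᶜ / 2),
      by positivity, fun z hz hzy => ?_⟩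
    have h1 := hcd z hz (hzy.trans_le (min_le_left _ _))
    have h2 : infDist y Λᶜ ≤ infDist z Λᶜ + dist y z := infDist_le_infDist_add_dist
    have h3 := hzy.trans_le (min_le_right _ _)
    rw [dist_comm] at h2
    refine min_le_min (min_le_min h1 ?_) le_rfl
    linarith)
  have t2a : ∀ y ∈ Λ, τ y ≤ ρ y := fun y hy =>
    (t2 y hy).trans ((min_le_left _ _).trans (min_le_left _ _))
  have t2b : ∀ y ∈ Λ, τ y ≤ infDist y Λᶜ / 2 := fun y hy =>
    (t2 y hy).trans ((min_le_left _ _).trans (min_le_right _ _))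
  have t2c : ∀ y ∈ Λ, τ y ≤ 1 := fun y hy => (t2 y hy).trans (min_le_right _ _)
  have tΛ : ∀ y, y ∉ Λ → τ y = 0 := by
    intro y hy
    by_contra hne0
    exact hy ((t1 y).1 (lt_of_le_of_ne (t0 y) (Ne.symm hne0)))
  have t3' : ∀ x y, τ y ≤ τ x + dist y x := by
    intro x y
    have := t3 x y
    rwa [one_mul] at this
  have hm : ∀ y ∈ Λ, closedBall y (h * τ y) ⊆ Λ := by
    intro y hy z hz
    by_contra hz'
    have h1 := infDist_le_dist_of_mem (x := y) (show z ∈ Λᶜ from hz')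
    have h2 := t2b y hy
    have h3 := hpos y hy
    rw [mem_closedBall, dist_comm] at hz
    have h4 : h * τ y ≤ 1 * τ y := by
      have := t0 y
      gcongr
    linarith
  refine ⟨τ, t0, t1, t2a, t3', hm, fun V hVo hVΛ hint => ?_⟩
  have hcont : Continuous τ := by
    refine LipschitzWith.continuous (K := 1) (LipschitzWith.of_le_add fun x y => ?_)
    have := t3' y x
    linarith
  refine col μ hh hVo (hΛb.subset hVΛ) t0 ?_ ⟨1, fun y => ?_⟩ tΛ hm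
    (thin_of_int μ hh t3' hVo.measurableSet (fun y hy => (t1 y).2 (hVΛ hy)) hcont.measurable hint)
  · have : (fun y : E => ‖y‖ ^ 2 / 2 - τ y ^ 2) = fun y => 1 / 2 * ‖y‖ ^ 2 - τ y ^ 2 := by
      funext y; ring
    rw [this]
    exact t4
  · by_cases hy : y ∈ Λ
    · exact t2c y hy
    · rw [tΛ y hy]; exact zero_le_one

end Vale.Agent.P073.COL605
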